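import Vale.Agent.P283R.All0
import Vale.Agent.P283R.Tp.Eig
import Vale.Agent.P283R.Tp.Fre
import Vale.Agent.P283R.Tp.Gfr

/-!
# P283R: the assembly
-/

namespace Vale.Agent.P283R.Fin

theorem pt : PT := gfr lt

theorem a0 : A0 := a0_of gfr eig

theorem qa0 : Qa (· = 0) := qa_of gfr eig fre

theorem q0 : Stm.Q (· = 0) := q_of gfr eig fre

end Vale.Agent.P283R.Fin
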