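import Vale.Agent.P287D.Defs

/-!
# P283R: the statement on the ring / place tier

`X = Spec A` near the point `χ`, `A = (S / I)^G`, `I = ker q`, `K = ℂ(X)`, `L = ℂ(Y)`.
-/

open Set

noncomputable section

namespace Vale.Agent.P283R

open Vale.Agent.P287D

section

variable {K L S : Type} [Field K] [Algebra ℂ K] [Field L] [Algebra ℂ L] [Algebra K L]
  [CommRing S] [Algebra ℂ S]

/-- the centre of `P` on `Spec A` passes through the point `χ` -/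
def Thr (A : Subalgebra ℂ K) (χ : A →ₐ[ℂ] ℂ) (P : Pl K) : Prop :=
  (∀ a ∈ A, a ∈ P.ring) ∧ ∀ a : A, P.rd a = 0 → χ a = 0

/-- `P` is a prime divisor of `Spec A` -/
def Prm (A : Subalgebra ℂ K) (P : Pl K) : Prop :=
  ∀ g ∈ P.ring, ∃ a ∈ A, ∃ b ∈ A, P.rd b ≠ 0 ∧ g = a / b

/-- `Spec A = Y / G`, `Y = {f = 0}` a normal complete intersection in the smooth `Spec S` -/
structure Quo {c : ℕ} (q : S →ₐ[ℂ] L) (f : Fin c → S) (G : Subgroup (S ≃ₐ[ℂ] S))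
    (A : Subalgebra ℂ K) : Prop where
  dom : IsDomain S
  sm : Algebra.Smooth ℂ S
  ker : RingHom.ker q = Ideal.span (range f)
  ht : (RingHom.ker q).height = c
  frL : ∀ b : L, ∃ s t, q t ≠ 0 ∧ b = q s / q t
  nor : ∀ b : L, IsIntegral q.range b → b ∈ q.range
  fin : Finite G
  stab : ∀ g ∈ G, ∀ s, q s = 0 → q (g s) = 0
  free : ∀ g ∈ G, g ≠ 1 → ∀ p : Ideal S, p.IsPrime → RingHom.ker q ≤ p → (∀ s, g s - s ∈ p) →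
    (c : ℕ∞) + 2 ≤ p.height
  inv : ∀ b : L, (∃ a ∈ A, algebraMap K L a = b) ↔ ∃ s, (∀ g ∈ G, q (g s) = q s) ∧ q s = b
  frK : ∀ a : K, ∃ b ∈ A, ∃ b' ∈ A, b' ≠ 0 ∧ a = b / b'

end

/-- **the tier statement**: `m⁻¹ div g` is the pull back of `K + B` near `χ`; `ε`-lc, `B ≥ 0` and
`Q B` integral at `χ` give `φ` with `N⁻¹ div φ = K + Λ`, `Λ ≥ B`, klt at `χ` -/
def Qa (p : ℕ → Prop) : Prop := ∀ (d Q : ℕ), 1 ≤ d → 1 ≤ Q → ∀ ε : ℝ, 0 < ε →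
  ∃ N : ℕ, 1 ≤ N ∧ ∀ (K L S : Type) [Field K] [Algebra ℂ K] [Field L] [Algebra ℂ L] [Algebra K L]
    [IsScalarTower ℂ K L] [CommRing S] [Algebra ℂ S] (c : ℕ) (q : S →ₐ[ℂ] L) (f : Fin c → S)
    (G : Subgroup (S ≃ₐ[ℂ] S)) (A : Subalgebra ℂ K) (χ : A →ₐ[ℂ] ℂ) (m : ℕ) (g : K),
    p c → FF K d → Quo q f G A → 0 < m → g ≠ 0 →
    (∀ P, Thr A χ P → ε ≤ 1 + dsc d ((m : ℝ)⁻¹ • dv g) P) →
    (∀ P, Thr A χ P → Prm A P → ∃ k : ℕ, Q * dsc d ((m : ℝ)⁻¹ • dv g) P = -k) →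
    ∃ φ : K, φ ≠ 0 ∧ ∀ P, Thr A χ P →
      (Prm A P → (m : ℝ)⁻¹ * dv g P ≤ (N : ℝ)⁻¹ * dv φ P) ∧ -1 < dsc d ((N : ℝ)⁻¹ • dv φ) P

end Vale.Agent.P283R
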