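import Mathlib.RingTheory.Smooth.Basic
import Mathlib.RingTheory.Ideal.Height
import Vale.Agent.P283M.Stm

/-!
# Bounded klt complements for quotients of complete intersections: the statement
-/

open CategoryTheory AlgebraicGeometry

namespace Vale.Agent.P283R.Stm

open Vale.Agent.P289 Vale.Agent.P283M.Stm Vale.Agent.P283M.Stm.Var

/-- `Y = Spec (S / I)` is a normal complete intersection of codimension `c` in the smooth affine
variety `Spec S`, `G` is a finite group of automorphisms of `Spec S` which preserves `Y` and acts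
on `Y` freely in codimension one, and `i` identifies `A` with the invariant functions on `Y`. -/
structure IsQuot (c : ℕ) {K S : Type} [Field K] [Algebra ℂ K] [CommRing S] [Algebra ℂ S]
    (A : Set K) (I : Ideal S) (G : Subgroup (S ≃ₐ[ℂ] S)) (i : K →ₐ[ℂ] FractionRing (S ⧸ I)) :
    Prop where
  domain : IsDomain S
  smooth : Algebra.Smooth ℂ S
  prime : I.IsPrime
  ci : I.height = c ∧ ∃ f : Fin c → S, I = Ideal.span (Set.range f)
  normal : IsIntegrallyClosed (S ⧸ I)
  finite : Finite G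
  stable : ∀ g ∈ G, ∀ s ∈ I, g s ∈ I
  free : ∀ g ∈ G, g ≠ 1 → ∀ p : Ideal S, p.IsPrime → I ≤ p → (∀ s, g s - s ∈ p) →
    I.height + 2 ≤ p.height
  inv : ∀ b, (∃ a ∈ A, i a = b) ↔
    ∃ s : S, (∀ g ∈ G, g s - s ∈ I) ∧ algebraMap (S ⧸ I) _ (Ideal.Quotient.mk I s) = b

/-- `A` is the ring of functions of a quotient `Y / G` with `Y` in `Spec S`. -/
def Quot (c : ℕ) {K : Type} [Field K] [Algebra ℂ K] (A : Set K) (S : Type) [CommRing S]
    [Algebra ℂ S] : Prop :=
  ∃ I G i, IsQuot c (S := S) A I G i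

/-- An affine neighbourhood `U` of `z` in `Z` is such a quotient `Y / G`. -/
def Lciq (c : ℕ) (Z : Var) (z : Pt Z.X) : Prop :=
  ∃ (U : Z.X.Opens) (S : Type) (_ : CommRing S) (_ : Algebra ℂ S),
    IsAffineOpen U ∧ z ∈ U ∧ Quot c {a : Z.K | ∀ x ∈ U, RegAt a x} S

/-- `f` is birational: it induces an isomorphism of the function fields. -/
def Birational {X Z : Var} (f : X.X ⟶ Z.X) : Prop :=
  ∃ p : Z.K ≃+* X.K, ∀ (x : Pt X.X) (a : St Z.X (x.map f)),
    p (toRat a) = toRat (val (f.stalkMap x) a)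

/-- Bounded klt complements over `z`: `f` birational, `K_X + B` is `ℚ`-linearly trivial near the
fibre over `z`, and `Z` is of class `Lciq c` at `z`, for the `c` allowed by `p`. -/
def Q (p : ℕ → Prop) : Prop :=
  ∀ d : ℕ, 1 ≤ d → ∀ ε : ℝ, 0 < ε → ∀ R : Finset ℚ, (∀ r ∈ R, 0 ≤ r ∧ r ≤ 1) →
    ∃ n : ℕ, 1 ≤ n ∧ ∀ (X Z : Var) (f : X.X ⟶ Z.X) (ω : DForm ℂ X.K d) (B : X.QDiv)
      (z : Pt Z.X) (c : ℕ), dimension X.str = d → ω.Nonzero → Pair (ε ≤ ·) ⊤ ω B →
      (∀ y, B y ≠ 0 → B y ∈ R) → Contraction f → Birational f →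
      (∃ m g, 0 < m ∧ ∀ x : Pt X.X, x.map f = z → LocalEq (logCan ω B) m g x) →
      IsClosed ({z} : Set (Pt Z.X)) → p c → Lciq c Z z → HasKltComplement f ω B n z

end Vale.Agent.P283R.Stm
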