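import Vale.Agent.P283R.Co.All0
import Vale.Agent.P283R.Co.Tw
import Vale.Agent.P283R.Tp.Lt
import Vale.Agent.P283R.Tp.A0r
import Vale.Agent.P283R.Tp.Ber
import Vale.Agent.P283R.Tp.Hrt
import Vale.Agent.P283R.Tp.Kap
import Vale.Agent.P283R.Tp.Nt
import Vale.Agent.P283R.Tp.Oner
import Vale.Agent.P283R.Tp.Quo
import Vale.Agent.P283R.Tp.Ram
import Vale.Agent.P283R.Tp.Sem
import Vale.Agent.P283R.Tp.Top0
import Vale.Agent.P283R.Tp.Ufd
import Vale.Agent.P283R.Br.Glue

/-!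
# P283R: the assembly, first part
-/

namespace Vale.Agent.P283R.Fin

theorem lt : LT := lt_of (Co.tt_tw (Co.tw_of Co.ap))

theorem sem : SEM := sem_of kap' hrt

theorem one : ONE := oner ber hrt

theorem a0_of (g : GFR) (e : EIG) : A0 := a0r (g lt) e sem kap' hrt der

theorem qa_of (g : GFR) (e : EIG) (f : FRE) : Qa (· = 0) :=
  top0 ram ufd (a0_of g e) nt one quo f

theorem q_of (g : GFR) (e : EIG) (f : FRE) : Stm.Q (· = 0) := Br.glue (qa_of g e f)

end Vale.Agent.P283R.Fin
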