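import Vale.Agent.P283R.Stm

/-!
# Bounded klt complements for quotients of complete intersections: the boundary
-/

open CategoryTheory AlgebraicGeometry

namespace Vale.Agent.P283R.Stm

open Vale.Agent.P289 Vale.Agent.P283M.Stm Vale.Agent.P283M.Stm.Var

/-- `A` is the ring of invariants of `Y = Spec (S / I)` as in `IsQuot`, and `a ^ q` is a unit times
the `r`-th power of a regular function `s` on `Y`: `(q / r) div a = div s`. -/
def QuotCut (c q r : ℕ) {K : Type} [Field K] [Algebra ℂ K] (A : Set K) (a : K) (S : Type)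
    [CommRing S] [Algebra ℂ S] : Prop :=
  ∃ I G i, IsQuot c (S := S) A I G i ∧
    ∃ (s : S ⧸ I) (u : (S ⧸ I)ˣ), i a ^ q = algebraMap (S ⧸ I) _ (u * s ^ r)

/-- An affine neighbourhood `U` of `z` is a quotient `Y / G` as in `Lciq`, `r D = div a` near `z`,
and the pull back of `q D` to `Y` is the divisor of a regular function. -/
def LciqCut (c q : ℕ) (Z : Var) (z : Pt Z.X) (D : Z.PrimeDiv → ℚ) : Prop :=
  ∃ (U : Z.X.Opens) (r : ℕ) (a : Z.K) (S : Type) (_ : CommRing S) (_ : Algebra ℂ S),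
    IsAffineOpen U ∧ z ∈ U ∧ 0 < r ∧ LocalEq D r a z ∧
      QuotCut c q r {a : Z.K | ∀ x ∈ U, RegAt a x} a S

/-- Bounded klt complements over `z`: `f` birational, `K_X + B` is `ℚ`-linearly trivial near the
fibre over `z`, `D = f_* B`, and `(Z, D)` is of class `LciqCut c q` at `z`. -/
def Qc : Prop :=
  ∀ d c q : ℕ, 1 ≤ d → 1 ≤ q → ∀ ε : ℝ, 0 < ε →
    ∃ n : ℕ, 1 ≤ n ∧ ∀ (X Z : Var) (f : X.X ⟶ Z.X) (ω : DForm ℂ X.K d) (B : X.QDiv)
      (z : Pt Z.X) (D : Z.PrimeDiv → ℚ), dimension X.str = d → ω.Nonzero → Pair (ε ≤ ·) ⊤ ω B →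
      Contraction f → Birational f →
      (∃ m g, 0 < m ∧ ∀ x : Pt X.X, x.map f = z → LocalEq (logCan ω B) m g x) →
      IsClosed ({z} : Set (Pt Z.X)) →
      (∀ (E : X.PrimeDiv) (y : Z.PrimeDiv), E.1.map f = y.1 → D y = B E) → LciqCut c q Z z D →
      HasKltComplement f ω B n z

end Vale.Agent.P283R.Stm
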