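import Mathlib.AlgebraicGeometry.Morphisms.Etale
import Vale.Agent.P283R.Stm2

/-!
# Bounded klt complements for quotients of complete intersections: étale neighbourhoods
-/

open CategoryTheory AlgebraicGeometry

namespace Vale.Agent.P283R.Stm

open Vale.Agent.P289 Vale.Agent.P283M.Stm Vale.Agent.P283M.Stm.Var

/-- `e : (W, w) → (Z, z)` is an étale neighbourhood of `z`, with `w` a closed point. -/
def EtNb {W Z : Var} (e : W.X ⟶ Z.X) (w : Pt W.X) (z : Pt Z.X) : Prop :=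
  Etale e ∧ e ≫ Z.str = W.str ∧ w.map e = z ∧ IsClosed ({w} : Set (Pt W.X))

/-- Étale locally at `z`, `Z` is a quotient `Y / G` as in `Lciq`. -/
def EtQ (c : ℕ) (Z : Var) (z : Pt Z.X) : Prop :=
  ∃ (W : Var) (e : W.X ⟶ Z.X) (w : Pt W.X), EtNb e w z ∧ Lciq c W w

/-- Étale locally at `z`, `(Z, D)` is of class `LciqCut`; `D'` is the pull back of `D`. -/
def EtCut (c q : ℕ) (Z : Var) (z : Pt Z.X) (D : Z.PrimeDiv → ℚ) : Prop :=
  ∃ (W : Var) (e : W.X ⟶ Z.X) (w : Pt W.X) (D' : W.PrimeDiv → ℚ), EtNb e w z ∧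
    (∀ (E : W.PrimeDiv) (y : Z.PrimeDiv), E.1.map e = y.1 → D' E = D y) ∧ LciqCut c q W w D'

/-- `Q` for the class `EtQ`. -/
def QE (p : ℕ → Prop) : Prop :=
  ∀ d : ℕ, 1 ≤ d → ∀ ε : ℝ, 0 < ε → ∀ R : Finset ℚ, (∀ r ∈ R, 0 ≤ r ∧ r ≤ 1) →
    ∃ n : ℕ, 1 ≤ n ∧ ∀ (X Z : Var) (f : X.X ⟶ Z.X) (ω : DForm ℂ X.K d) (B : X.QDiv)
      (z : Pt Z.X) (c : ℕ), dimension X.str = d → ω.Nonzero → Pair (ε ≤ ·) ⊤ ω B →
      (∀ y, B y ≠ 0 → B y ∈ R) → Contraction f → Birational f →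
      (∃ m g, 0 < m ∧ ∀ x : Pt X.X, x.map f = z → LocalEq (logCan ω B) m g x) →
      IsClosed ({z} : Set (Pt Z.X)) → p c → EtQ c Z z → HasKltComplement f ω B n z

/-- `Qc` for the class `EtCut`, with `n` independent of the `c` allowed by `p`. -/
def QEc (p : ℕ → Prop) : Prop :=
  ∀ d q : ℕ, 1 ≤ d → 1 ≤ q → ∀ ε : ℝ, 0 < ε →
    ∃ n : ℕ, 1 ≤ n ∧ ∀ (X Z : Var) (f : X.X ⟶ Z.X) (ω : DForm ℂ X.K d) (B : X.QDiv)
      (z : Pt Z.X) (D : Z.PrimeDiv → ℚ) (c : ℕ), dimension X.str = d → ω.Nonzero →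
      Pair (ε ≤ ·) ⊤ ω B → Contraction f → Birational f →
      (∃ m g, 0 < m ∧ ∀ x : Pt X.X, x.map f = z → LocalEq (logCan ω B) m g x) →
      IsClosed ({z} : Set (Pt Z.X)) →
      (∀ (E : X.PrimeDiv) (y : Z.PrimeDiv), E.1.map f = y.1 → D y = B E) → p c →
      EtCut c q Z z D → HasKltComplement f ω B n z

end Vale.Agent.P283R.Stm
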