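import Vale.Agent.P283R.Qa

/-!
# P283R: the statement on the ring / place tier, complete intersections
-/

open Set

noncomputable section

namespace Vale.Agent.P283R

open Vale.Agent.P287D

/-- `r b = div a` near `χ`, and `a ^ Q` is a unit times `s ^ r` at a point `y` of `Y` over `χ`:
`Q` times the pull back of `b` is the divisor of the regular function `s` at `y` -/
def Cut {K L S : Type} [Field K] [Algebra ℂ K] [Field L] [Algebra ℂ L] [Algebra K L] [CommRing S]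
    [Algebra ℂ S] (Q : ℕ) (q : S →ₐ[ℂ] L) (A : Subalgebra ℂ K) (χ : A →ₐ[ℂ] ℂ) (b : Pl K → ℝ) :
    Prop :=
  ∃ (r : ℕ) (a : K) (y : Ideal S) (s u t : S), 0 < r ∧ a ≠ 0 ∧ y.IsPrime ∧
    (∀ (a' : A) (s' : S), algebraMap K L a' = q s' → χ a' = 0 → s' ∈ y) ∧ u ∉ y ∧ t ∉ y ∧
    algebraMap K L a ^ Q * q t = q u * q s ^ r ∧
    ∀ P, Thr A χ P → Prm A P → (P.ord a : ℝ) = r * b P

/-- **the tier statement in codimension `c`** -/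
def Qb (c : ℕ) : Prop := ∀ (d Q : ℕ), 1 ≤ d → 1 ≤ Q → ∀ ε : ℝ, 0 < ε →
  ∃ N : ℕ, 1 ≤ N ∧ ∀ (K L S : Type) [Field K] [Algebra ℂ K] [Field L] [Algebra ℂ L] [Algebra K L]
    [IsScalarTower ℂ K L] [CommRing S] [Algebra ℂ S] (q : S →ₐ[ℂ] L) (f : Fin c → S)
    (G : Subgroup (S ≃ₐ[ℂ] S)) (A : Subalgebra ℂ K) (χ : A →ₐ[ℂ] ℂ) (m : ℕ) (g : K),
    FF K d → Quo q f G A → 0 < m → g ≠ 0 →
    (∀ P, Thr A χ P → ε ≤ 1 + dsc d ((m : ℝ)⁻¹ • dv g) P) →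
    Cut Q q A χ (-dsc d ((m : ℝ)⁻¹ • dv g)) →
    ∃ φ : K, φ ≠ 0 ∧ ∀ P, Thr A χ P →
      (Prm A P → (m : ℝ)⁻¹ * dv g P ≤ (N : ℝ)⁻¹ * dv φ P) ∧ -1 < dsc d ((N : ℝ)⁻¹ • dv φ) P

end Vale.Agent.P283R
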