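import Vale.Agent.P283R.Stm2

/-!
# Bounded klt complements for quotients of complete intersections, any codimension
-/

open CategoryTheory AlgebraicGeometry

namespace Vale.Agent.P283R.Stm

open Vale.Agent.P289 Vale.Agent.P283M.Stm Vale.Agent.P283M.Stm.Var

/-- As `Qc`, with `n` independent of the codimension `c`. -/
def Qu : Prop :=
  ∀ d q : ℕ, 1 ≤ d → 1 ≤ q → ∀ ε : ℝ, 0 < ε →
    ∃ n : ℕ, 1 ≤ n ∧ ∀ (c : ℕ) (X Z : Var) (f : X.X ⟶ Z.X) (ω : DForm ℂ X.K d) (B : X.QDiv)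
      (z : Pt Z.X) (D : Z.PrimeDiv → ℚ), dimension X.str = d → ω.Nonzero → Pair (ε ≤ ·) ⊤ ω B →
      Contraction f → Birational f →
      (∃ m g, 0 < m ∧ ∀ x : Pt X.X, x.map f = z → LocalEq (logCan ω B) m g x) →
      IsClosed ({z} : Set (Pt Z.X)) →
      (∀ (E : X.PrimeDiv) (y : Z.PrimeDiv), E.1.map f = y.1 → D y = B E) → LciqCut c q Z z D →
      HasKltComplement f ω B n z

end Vale.Agent.P283R.Stm
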