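import Vale.Agent.P283R.Tp.St

/-!
# P283R: descent of complements along étale neighbourhoods, the tier statements
-/

open Set

noncomputable section

namespace Vale.Agent.P283R

open Vale.Agent.P287D

section

variable {K₀ K : Type} [Field K₀] [Algebra ℂ K₀] [Field K] [Algebra ℂ K]

/-- the local ring of `Spec A` at `χ` -/
def Lz (A : Subalgebra ℂ K) (χ : A →ₐ[ℂ] ℂ) : Set K :=
  {g | ∃ a ∈ A, ∃ b : A, χ b ≠ 0 ∧ g = a / b}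

/-- the conclusion of `Qa` and `Qb` -/
def Cpl (d N m : ℕ) (A : Subalgebra ℂ K) (χ : A →ₐ[ℂ] ℂ) (g φ : K) : Prop :=
  φ ≠ 0 ∧ ∀ P, Thr A χ P →
    (Prm A P → (m : ℝ)⁻¹ * dv g P ≤ (N : ℝ)⁻¹ * dv φ P) ∧ -1 < dsc d ((N : ℝ)⁻¹ • dv φ) P

/-- the local ring `R` of `Spec A` at `χ` is flat and unramified over the local ring `R₀` of
`Spec A₀` at `χ₀` -/
structure Etl [Algebra K₀ K] (d : ℕ) (A₀ : Subalgebra ℂ K₀) (χ₀ : A₀ →ₐ[ℂ] ℂ)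
    (A : Subalgebra ℂ K) (χ : A →ₐ[ℂ] ℂ) {R₀ R : Type} [CommRing R₀] [CommRing R] [Algebra R₀ R]
    (j₀ : R₀ →+* K₀) (j : R →+* K) : Prop where
  aff : Aff d A₀
  fg : A.FG
  fr : ∀ a : K, ∃ s t : A, a = s / t
  har : ∀ g : K, (∀ P, Thr A χ P → Prm A P → 0 ≤ P.ord g) → g ∈ Lz A χ
  inj₀ : Function.Injective j₀
  inj : Function.Injective j
  rg₀ : range j₀ = Lz A₀ χ₀
  rg : range j = Lz A χ
  com : ∀ r, j (algebraMap R₀ R r) = algebraMap K₀ K (j₀ r)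
  flat : Module.Flat R₀ R
  unr : Algebra.FormallyUnramified R₀ R
  lr₀ : IsLocalRing R₀
  lr : IsLocalRing R
  loc : IsLocalHom (algebraMap R₀ R)

end

/-- a statement on all étale neighbourhoods -/
def ForEt (T : ∀ (_ : ℕ) (K₀ K : Type) [Field K₀] [Algebra ℂ K₀] [Field K] [Algebra ℂ K]
    [Algebra K₀ K] (A₀ : Subalgebra ℂ K₀) (_ : A₀ →ₐ[ℂ] ℂ) (A : Subalgebra ℂ K) (_ : A →ₐ[ℂ] ℂ),
    Prop) : Prop :=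
  ∀ (d : ℕ) (K₀ K : Type) [Field K₀] [Algebra ℂ K₀] [Field K] [Algebra ℂ K] [Algebra K₀ K]
    [IsScalarTower ℂ K₀ K] (A₀ : Subalgebra ℂ K₀) (χ₀ : A₀ →ₐ[ℂ] ℂ) (A : Subalgebra ℂ K)
    (χ : A →ₐ[ℂ] ℂ) (R₀ R : Type) [CommRing R₀] [CommRing R] [Algebra R₀ R] (j₀ : R₀ →+* K₀)
    (j : R →+* K), Etl d A₀ χ₀ A χ j₀ j → T d K₀ K A₀ χ₀ A χ

/-- **EF**: the field extension is finite -/
def EF : Prop := ForEt fun d _ K _ _ _ _ _ _ _ _ _ => FF K d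

/-- **EU**: places go down, prime divisors go down and are unramified -/
def EU : Prop := ForEt fun _ K₀ K _ _ _ _ _ A₀ χ₀ A χ => ∀ P P₀, Thr A χ P →
  Lies (algebraMap K₀ K) P P₀ →
    Thr A₀ χ₀ P₀ ∧ (Prm A P → Prm A₀ P₀ ∧ P.ord (algebraMap K₀ K P₀.t) = 1)

/-- **EL**: places lift -/
def EL : Prop := ForEt fun _ K₀ K _ _ _ _ _ A₀ χ₀ A χ => ∀ P₀, Thr A₀ χ₀ P₀ →
  ∃ P, Thr A χ P ∧ Lies (algebraMap K₀ K) P P₀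

/-- **EC**: flatness for fractional ideals -/
def EC : Prop := ForEt fun _ K₀ K _ _ _ _ _ A₀ χ₀ A χ => ∀ (u : Finset K₀) (x : K),
  (∃ i ∈ u, i ≠ 0) → (∀ i ∈ u, x * algebraMap K₀ K i ∈ Lz A χ) →
    ∃ (k : ℕ) (b : Fin k → K) (φ : Fin k → K₀), (∀ l, b l ∈ Lz A χ) ∧
      (∀ l, ∀ i ∈ u, φ l * i ∈ Lz A₀ χ₀) ∧ x = ∑ l, b l * algebraMap K₀ K (φ l)

/-- **EA**: approximation -/
def EA : Prop := ∀ (d : ℕ) (K : Type) [Field K] [Algebra ℂ K] (A : Subalgebra ℂ K) (n : Pl K → ℤ),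
  Aff d A → {P | PD A P ∧ n P ≠ 0}.Finite → ∃ u : Finset K, (∃ i ∈ u, i ≠ 0) ∧
    ∀ P, PD A P → (∀ i ∈ u, i ≠ 0 → n P ≤ P.ord i) ∧ ∃ i ∈ u, i ≠ 0 ∧ P.ord i = n P

/-- **ETD**: the pair pulls back, the complement descends -/
def ETD : Prop := ForEt fun d K₀ K _ _ _ _ _ A₀ χ₀ A χ => FF K d ∧ ∀ (m : ℕ) (g₀ : K₀), 0 < m →
  g₀ ≠ 0 → ∃ g : K, g ≠ 0 ∧
    (∀ P, Thr A χ P → ∃ P₀, Lies (algebraMap K₀ K) P P₀ ∧ Thr A₀ χ₀ P₀ ∧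
      (∃ e : ℝ, 1 ≤ e ∧
        1 + dsc d ((m : ℝ)⁻¹ • dv g) P = e * (1 + dsc d ((m : ℝ)⁻¹ • dv g₀) P₀)) ∧
      (Prm A P → Prm A₀ P₀ ∧ dsc d ((m : ℝ)⁻¹ • dv g) P = dsc d ((m : ℝ)⁻¹ • dv g₀) P₀)) ∧
    ∀ (N : ℕ) (φ : K), 1 ≤ N → Cpl d N m A χ g φ → ∃ φ₀, Cpl d (2 * N) m A₀ χ₀ g₀ φ₀

/-- **ETR** -/
def ETR : Prop := EF → EU → EL → EC → EA → ETD

end Vale.Agent.P283R
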